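import Mathlib

/-!
# P045: primes for which small negative integers are nonsquares
-/

namespace Vale.Agent.P045.V4

/-- For `p` congruent to `-1` modulo `8 * B!` every `m ≤ B` is a square, hence `-m` is none. -/
theorem exists_neg_prime (B M : ℕ) : ∃ p, M ≤ p ∧ B < p ∧ 3 ≤ p ∧ p.Prime ∧
    ∀ m : ℕ, 1 ≤ m → m ≤ B → ¬ IsSquare (-(m : ZMod p)) := by
  set N := 8 * B.factorial with hN
  have hN0 : N ≠ 0 := by positivity
  have : NeZero N := ⟨hN0⟩
  obtain ⟨p, hgt, hp, hmod⟩ :=
    Nat.forall_exists_prime_gt_and_eq_mod (q := N) (a := -1) isUnit_one.neg (M + B + 3)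
  have : Fact p.Prime := ⟨hp⟩
  have hdvd : N ∣ p + 1 := by
    rw [← ZMod.natCast_eq_zero_iff]
    simp [hmod]
  have h8 : p % 8 = 7 := by
    have := (Dvd.intro _ hN.symm : 8 ∣ N).trans hdvd
    omega
  have h4 : p % 4 = 3 := by omega
  have hneg : ¬ IsSquare (-1 : ZMod p) := by
    rw [ZMod.exists_sq_eq_neg_one_iff]; simp [h4]
  have hprime : ∀ l : ℕ, l.Prime → l ≤ B → IsSquare (l : ZMod p) := by
    intro l hl hlB
    have : Fact l.Prime := ⟨hl⟩
    have hpl : (p : ZMod l) = -1 := by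
      have hd : l ∣ p + 1 :=
        ((Nat.dvd_factorial hl.pos hlB).trans (Dvd.intro_left _ rfl)).trans hdvd
      have h0 : ((p + 1 : ℕ) : ZMod l) = 0 := (ZMod.natCast_eq_zero_iff _ _).2 hd
      push_cast at h0
      linear_combination h0
    rcases hl.eq_two_or_odd with rfl | hodd
    · exact (ZMod.exists_sq_eq_two_iff (by omega)).2 (Or.inr h8)
    · rcases Nat.odd_mod_four_iff.1 hodd with h1 | h3
      · refine (ZMod.exists_sq_eq_prime_iff_of_mod_four_eq_one h1 (by omega : p ≠ 2)).1 ?_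
        rw [hpl, ZMod.exists_sq_eq_neg_one_iff]; omega
      · refine (ZMod.exists_sq_eq_prime_iff_of_mod_four_eq_three h4 h3 (by omega)).2 ?_
        rw [hpl, ZMod.exists_sq_eq_neg_one_iff]; omega
  have hall : ∀ m : ℕ, m ≠ 0 → m ≤ B → IsSquare (m : ZMod p) := by
    intro m
    induction m using Nat.recOnMul with
    | zero => intro h; exact absurd rfl h
    | one => intros; simp
    | prime l hl => intro _ hle; exact hprime l hl hle
    | mul a b ha hb =>
      intro h0 hle
      obtain ⟨ha0, hb0⟩ := mul_ne_zero_iff.1 h0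
      rw [Nat.cast_mul]
      exact (ha ha0 (le_trans (Nat.le_mul_of_pos_right a (Nat.pos_of_ne_zero hb0)) hle)).mul
        (hb hb0 (le_trans (Nat.le_mul_of_pos_left b (Nat.pos_of_ne_zero ha0)) hle))
  refine ⟨p, by omega, by omega, by omega, hp, fun m hm hmB hsq => hneg ?_⟩
  have hm0 : (m : ZMod p) ≠ 0 := by
    rw [Ne, ZMod.natCast_eq_zero_iff]
    intro hd
    have := Nat.le_of_dvd (by omega) hd
    omega
  have h := hsq.mul (hall m (by omega) hmB).inv
  rwa [neg_mul, mul_inv_cancel₀ hm0] at h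

end Vale.Agent.P045.V4
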