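import Mathlib
import Vale.Agent.P045.V4.Defs
import Vale.Agent.P045.V4.Params.NegPrime

/-!
# P045: elementary facts on the role points of host v4
-/

open Finset
open scoped Classical

namespace Vale.Agent.P045.V4

/-- The height of the centre of the pencil. -/
def nuInt : ℤ := 10 ^ 30

/-- The abscissa of the vertical thinned line. -/
def cInt : ℤ := 10000

/-- Half a shift. -/
def hs (i : Fin 5) : ℤ := 4 ^ (i : ℕ)

/-- The height above the parabola of a role point on the vertical line, up to sign. -/
def tInt (i : Fin 5) : ℤ := (i : ℕ) + 1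

/-- The bound below which all negative integers are nonsquares. -/
def negBound : ℕ := 10 ^ 40

theorem hs_bounds (i : Fin 5) : 1 ≤ hs i ∧ hs i ≤ 256 := by fin_cases i <;> simp [hs]

theorem tInt_bounds (i : Fin 5) : 1 ≤ tInt i ∧ tInt i ≤ 5 := by fin_cases i <;> simp [tInt]

theorem hs_injective : Function.Injective hs := by decide

theorem tInt_injective : Function.Injective tInt := by decide

/-- The offset of a two-step role. -/
def off (w : Fin 5 × Fin 5) : ℤ := 2 * hs w.1 + hs w.2

theorem off_injective : Function.Injective off := by decide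

theorem off_bounds (w : Fin 5 × Fin 5) : 3 ≤ off w ∧ off w ≤ 768 := by
  have h1 := hs_bounds w.1
  have h2 := hs_bounds w.2
  simp only [off]
  omega

/-- Two shifts determine their pair. -/
theorem hs_add_cases : ∀ i j i' j' : Fin 5, hs i + hs j = hs i' + hs j' →
    (i = i' ∧ j = j') ∨ (i = j' ∧ j = i') := by decide

variable {p : ℕ} [Fact p.Prime]

/-- The properties of the prime used below. -/
structure GoodPrime (p : ℕ) : Prop where
  big : negBound < p
  neg : ∀ m : ℕ, 1 ≤ m → m ≤ negBound → ¬ IsSquare (-(m : ZMod p))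

theorem cast_ne_zero_of_small (hp : GoodPrime p) {z : ℤ} (h0 : z ≠ 0)
    (hb : |z| ≤ (negBound : ℤ)) : (z : ZMod p) ≠ 0 := by
  intro h
  rw [ZMod.intCast_zmod_eq_zero_iff_dvd] at h
  have := Int.le_of_dvd (abs_pos.2 h0) ((dvd_abs _ _).2 h)
  have h' : (negBound : ℤ) < (p : ℤ) := by exact_mod_cast hp.big
  omega

theorem not_square_of_small (hp : GoodPrime p) {z : ℤ} (h0 : z < 0)
    (hb : -z ≤ (negBound : ℤ)) : ¬ IsSquare (z : ZMod p) := by
  have h := hp.neg z.natAbs (by omega) (by omega)
  have e : (z : ZMod p) = -((z.natAbs : ℕ) : ZMod p) := by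
    rw [← Int.cast_natCast (R := ZMod p) z.natAbs, ← Int.cast_neg]
    congr 1
    omega
  rwa [e]

theorem small_bound : (10 : ℤ) ^ 39 ≤ (negBound : ℤ) := by
  simp only [negBound]; norm_num

theorem two_ne_zero' (hp : GoodPrime p) : (2 : ZMod p) ≠ 0 := by
  have := cast_ne_zero_of_small hp (z := 2) (by norm_num) (by simp only [negBound]; norm_num)
  simpa using this

/-- The height of the centre of the pencil, modulo `p`. -/
def nuP (p : ℕ) : ZMod p := (nuInt : ZMod p)

/-- The vertical line, modulo `p`. -/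
def cP (p : ℕ) : ZMod p := (cInt : ZMod p)

/-- The role points on the vertical line. -/
def yP (p : ℕ) (i : Fin 5) : ZMod p := ((cInt ^ 2 + tInt i : ℤ) : ZMod p)

/-- A point of the parabola of a shift. -/
def qpt (X : ZMod p) (i : Fin 5) : Pt p := (X, X ^ 2 - (hs i : ZMod p) ^ 2)

theorem shift_eq (i : Fin 5) : shift p i = 2 * (hs i : ZMod p) := by
  simp [shift, hs]

theorem rolePt_inl (hp : GoodPrime p) (a : ZMod p) (i : Fin 5) :
    rolePt (cP p) (yP p) (.inl (a, i)) = qpt (a + (hs i : ZMod p)) i := by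
  have h2 := two_ne_zero' hp
  simp only [rolePt, Interior.pt, qpt, shift_eq, Prod.mk.injEq]
  constructor
  · field_simp; ring
  · ring

theorem rolePt_inr (i : Fin 5) : rolePt (cP p) (yP p) (.inr i) = (cP p, yP p i) := rfl

theorem neg_nu_not_square (hp : GoodPrime p) : ¬ IsSquare (-nuP p) := by
  have := not_square_of_small hp (z := -nuInt) (by simp [nuInt])
    (by simp only [nuInt, negBound]; norm_num)
  simpa [nuP] using this

theorem sq_add_nu_ne (hp : GoodPrime p) (a : ZMod p) : a ^ 2 + nuP p ≠ 0 := by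
  intro h
  exact neg_nu_not_square hp ⟨a, by linear_combination -h⟩

/-- Equal directions as seen from the centre. -/
theorem dirFrom_eq_cases {nu : ZMod p} {A B : Pt p} (h : dirFrom (0, nu) A = dirFrom (0, nu) B) :
    (A.1 = 0 ∧ B.1 = 0) ∨ (A.1 ≠ 0 ∧ B.1 ≠ 0 ∧ (A.2 - nu) * B.1 = (B.2 - nu) * A.1) := by
  simp only [dirFrom, sub_zero] at h
  split_ifs at h with ha hb hb
  · exact Or.inl ⟨ha, hb⟩
  · simp only [Option.some.injEq] at h
    rw [div_eq_div_iff ha hb] at h
    exact Or.inr ⟨ha, hb, h⟩

/-- The direction of a line as seen from the centre. -/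
theorem dirFrom_eq_some {nu s : ZMod p} {A : Pt p} (h : dirFrom (0, nu) A = some s) :
    A.1 ≠ 0 ∧ A.2 - nu = s * A.1 := by
  simp only [dirFrom, sub_zero] at h
  split_ifs at h with ha
  simp only [Option.some.injEq] at h
  rw [div_eq_iff ha] at h
  exact ⟨ha, h⟩

theorem dirFrom_eq_none {nu : ZMod p} {A : Pt p} (h : dirFrom (0, nu) A = none) : A.1 = 0 := by
  simp only [dirFrom] at h
  split_ifs at h with ha
  exact ha

/-- A thinned line meets a pencil line once. -/
theorem eq_of_dir_eq (hp : GoodPrime p) {d : Option (ZMod p)} {A B : Pt p}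
    (hA : A ∈ linePts (mline (cP p) d)) (hB : B ∈ linePts (mline (cP p) d))
    (h : dirFrom (0, nuP p) A = dirFrom (0, nuP p) B) : A = B := by
  rcases d with _ | a
  · simp only [mline, mem_linePts_none] at hA hB
    rcases dirFrom_eq_cases h with ⟨h1, -⟩ | ⟨h1, -, h3⟩
    · exfalso
      rw [hA] at h1
      exact cast_ne_zero_of_small hp (z := cInt) (by simp [cInt])
        (by simp only [cInt, negBound]; norm_num) h1
    · refine Prod.ext (hA.trans hB.symm) ?_
      rw [hA, hB] at h3
      have := mul_right_cancel₀ (hA ▸ h1) h3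
      linear_combination this
  · simp only [mline, mem_linePts_some] at hA hB
    have hX : A.1 = B.1 := by
      rcases dirFrom_eq_cases h with ⟨h1, h2⟩ | ⟨-, -, h3⟩
      · rw [h1, h2]
      · rw [hA, hB] at h3
        refine mul_left_cancel₀ (sq_add_nu_ne hp a) ?_
        linear_combination h3
    exact Prod.ext hX (by rw [hA, hB, hX])

/-- No role has the direction of a tangent at the same parameter. -/
theorem class_tangent (hp : GoodPrime p) (a : ZMod p) (k : Fin 5) (e : ZMod p)
    (he : e ^ 2 = 1) :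
    dirFrom (0, nuP p) (qpt (a + e * (hs k : ZMod p)) k) ≠ some (2 * a) := by
  intro h
  obtain ⟨-, h2⟩ := dirFrom_eq_some h
  refine sq_add_nu_ne hp a ?_
  simp only [qpt] at h2
  linear_combination -h2 + (hs k : ZMod p) ^ 2 * he

/-- No two-step role has the direction of a tangent. -/
theorem class_two_step (hp : GoodPrime p) (a : ZMod p) (w : Fin 5 × Fin 5) (e : ZMod p)
    (he : e ^ 2 = 1) :
    dirFrom (0, nuP p) (qpt (a + e * (off w : ZMod p)) w.2) ≠ some (2 * a) := by
  intro h
  obtain ⟨-, h2⟩ := dirFrom_eq_some h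
  have hz : ((off w ^ 2 - hs w.2 ^ 2 - nuInt : ℤ) : ZMod p) = a * a := by
    push_cast
    simp only [qpt] at h2
    simp only [nuP] at h2
    linear_combination h2 - (off w : ZMod p) ^ 2 * he
  have h1 := off_bounds w
  have h3 := hs_bounds w.2
  refine not_square_of_small hp ?_ ?_ ⟨a, hz⟩
  · simp only [nuInt]; nlinarith
  · simp only [nuInt, negBound]; push_cast; nlinarith

/-- Two-step roles of one parameter in one direction have the same offset. -/
theorem pair_dir (hp : GoodPrime p) (a : ZMod p) (w w' : Fin 5 × Fin 5) (e : ZMod p)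
    (he : e ^ 2 = 1)
    (h : dirFrom (0, nuP p) (qpt (a + e * (off w : ZMod p)) w.2) =
      dirFrom (0, nuP p) (qpt (a + e * (off w' : ZMod p)) w'.2)) : w = w' := by
  by_contra hne
  have hE : off w' - off w ≠ 0 := sub_ne_zero.2 fun q => hne (off_injective q).symm
  have h1 := off_bounds w
  have h2 := off_bounds w'
  rcases dirFrom_eq_cases h with ⟨ha, hb⟩ | ⟨-, -, h3⟩
  · simp only [qpt] at ha hb
    refine cast_ne_zero_of_small hp hE ?_ ?_
    · rw [abs_le]; simp only [negBound]; push_cast; constructor <;> linarith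
    · push_cast
      linear_combination e * hb - e * ha - ((off w' : ZMod p) - off w) * he
  · set E : ℤ := off w' - off w with hEdef
    set D : ℤ := hs w.2 ^ 2 - hs w'.2 ^ 2 with hDdef
    have h4 := hs_bounds w.2
    have h5 := hs_bounds w'.2
    have hz : (((E ^ 2 + D) ^ 2 - 4 * E ^ 2 * (hs w.2 ^ 2 + nuInt) : ℤ) : ZMod p) =
        (2 * (E : ZMod p) * e * (a + e * (off w : ZMod p)) + ((E : ZMod p) ^ 2 + (D : ZMod p))) *
        (2 * (E : ZMod p) * e * (a + e * (off w : ZMod p)) + ((E : ZMod p) ^ 2 + (D : ZMod p))) := by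
      simp only [qpt, nuP] at h3
      rw [hEdef, hDdef]
      push_cast
      linear_combination (4 * e * ((off w' : ZMod p) - off w)) * h3 +
        (4 * e * ((off w' : ZMod p) - off w) ^ 3 * (a + e * (off w : ZMod p)) +
          4 * ((off w' : ZMod p) - off w) ^ 2 * ((hs w.2 : ZMod p) ^ 2 + (nuInt : ZMod p))) * he
    have hE1 : 1 ≤ E ^ 2 := by rcases lt_or_gt_of_ne hE with q | q <;> nlinarith
    have hE2 : E ^ 2 ≤ 600000 := by nlinarith
    have hD1 : |D| ≤ 65536 := by rw [abs_le]; constructor <;> nlinarith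
    obtain ⟨hD2, hD3⟩ := abs_le.1 hD1
    refine not_square_of_small hp ?_ ?_ ⟨_, hz⟩
    · simp only [nuInt]; nlinarith
    · simp only [nuInt, negBound]; push_cast; nlinarith

end Vale.Agent.P045.V4
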