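import Mathlib

/-!
# P045: greedy colouring of a finite relation of bounded degree
-/

open Finset
open scoped Classical

namespace Vale.Agent.P045.V4

/-- A symmetric irreflexive relation with at most `d` neighbours at each vertex is properly
coloured by `d + 1` colours. -/
theorem exists_colouring {V : Type*} [Fintype V] (R : V → V → Prop) (d : ℕ)
    (hs : ∀ x y, R x y → R y x) (hirr : ∀ x, ¬ R x x)
    (hd : ∀ x, #(univ.filter (R x)) ≤ d) :
    ∃ f : V → Fin (d + 1), ∀ x y, R x y → f x ≠ f y := by
  suffices h : ∀ s : Finset V, ∃ f : V → Fin (d + 1), ∀ x ∈ s, ∀ y ∈ s, R x y → f x ≠ f y by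
    obtain ⟨f, hf⟩ := h univ
    exact ⟨f, fun x y => hf x (mem_univ _) y (mem_univ _)⟩
  intro s
  induction s using Finset.induction with
  | empty => exact ⟨fun _ => 0, fun x hx => absurd hx (notMem_empty x)⟩
  | @insert a s ha ih =>
    obtain ⟨f, hf⟩ := ih
    obtain ⟨k, hk⟩ : ∃ k, k ∉ (univ.filter (R a)).image f := by
      by_contra hno
      push Not at hno
      have := (card_le_card (fun k _ => hno k : (univ : Finset (Fin (d + 1))) ⊆ _)).trans
        (card_image_le.trans (hd a))
      simp at this
    refine ⟨Function.update f a k, fun x hx y hy hxy => ?_⟩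
    have hne : x ≠ y := fun e => hirr y (e ▸ hxy)
    rcases mem_insert.1 hx with rfl | hx
    · rw [Function.update_self, Function.update_of_ne hne.symm]
      exact fun e => hk (mem_image.2 ⟨y, mem_filter.2 ⟨mem_univ _, hxy⟩, e.symm⟩)
    · rcases mem_insert.1 hy with rfl | hy
      · rw [Function.update_self, Function.update_of_ne hne]
        exact fun e => hk (mem_image.2 ⟨x, mem_filter.2 ⟨mem_univ _, hs _ _ hxy⟩, e⟩)
      · rw [Function.update_of_ne (fun e => ha (by rw [← e]; exact hx)),
          Function.update_of_ne (fun e => ha (by rw [← e]; exact hy))]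
        exact hf x hx y hy hxy

end Vale.Agent.P045.V4
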