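import Mathlib
import Vale.Agent.P045.V4.Defs
import Vale.Agent.P045.InteriorForced
import Vale.Agent.P045.V4.Params.NegPrime
import Vale.Agent.P045.V4.Params.Colour
import Vale.Agent.P045.V4.Params.Algebra

/-!
# P045: parameters of host v4 exist
-/

open Finset
open scoped Classical

namespace Vale.Agent.P045.V4

variable {p : ℕ} [Fact p.Prime] {N : ℕ}

/-- The slot of a role: two per shift, chosen by the order of the two points on one pencil line. -/
noncomputable def slotOf : Role p → Fin 11
  | .inl (a, i) =>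
    ⟨2 * (i : ℕ) + if (a + (hs i : ZMod p)).val <
        (-((hs i : ZMod p) ^ 2 + nuP p) / (a + (hs i : ZMod p))).val then 1 else 0, by
      have := i.isLt
      split_ifs <;> omega⟩
  | .inr _ => 10

theorem hs_ne_zero (hp : GoodPrime p) (i j : Fin 5) : (hs i : ZMod p) + (hs j : ZMod p) ≠ 0 := by
  have := cast_ne_zero_of_small hp (z := hs i + hs j)
    (by have := hs_bounds i; have := hs_bounds j; omega)
    (by
      have := hs_bounds i; have := hs_bounds j; have := small_bound
      rw [abs_le]; constructor <;> linarith)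
  simpa using this

theorem hs_cast_inj (hp : GoodPrime p) {i j : Fin 5} (h : (hs i : ZMod p) = (hs j : ZMod p)) :
    i = j := by
  by_contra hne
  refine cast_ne_zero_of_small hp (z := hs i - hs j) (sub_ne_zero.2 fun e => hne (hs_injective e))
    ?_ (by push_cast; linear_combination h)
  have := hs_bounds i; have := hs_bounds j; have := small_bound
  rw [abs_le]; constructor <;> linarith

theorem hs_sq_inj (hp : GoodPrime p) {i j : Fin 5}
    (h : (hs i : ZMod p) ^ 2 = (hs j : ZMod p) ^ 2) : i = j := by
  rcases sq_eq_sq_iff_eq_or_eq_neg.1 h with h | h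
  · exact hs_cast_inj hp h
  · exact absurd (by rw [h]; ring) (hs_ne_zero hp i j)

theorem cP_ne (hp : GoodPrime p) : cP p ≠ 0 :=
  cast_ne_zero_of_small hp (by simp [cInt]) (by simp only [cInt, negBound]; norm_num)

theorem qpt_ne_yP (hp : GoodPrime p) (X : ZMod p) (j i : Fin 5) :
    qpt X j ≠ (cP p, yP p i) := by
  intro h
  simp only [qpt, Prod.mk.injEq] at h
  obtain ⟨rfl, h2⟩ := h
  refine cast_ne_zero_of_small hp (z := tInt i + hs j ^ 2)
    (by have := tInt_bounds i; nlinarith [hs_bounds j]) ?_ ?_
  · have := tInt_bounds i; have := hs_bounds j; have := small_bound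
    rw [abs_le]; constructor <;> nlinarith
  · simp only [cP, yP] at h2
    push_cast at h2 ⊢
    linear_combination -h2

theorem yP_injective (hp : GoodPrime p) : Function.Injective (yP p) := by
  intro i j h
  by_contra hne
  refine cast_ne_zero_of_small hp (z := tInt i - tInt j)
    (sub_ne_zero.2 fun e => hne (tInt_injective e)) ?_ ?_
  · have := tInt_bounds i; have := tInt_bounds j; have := small_bound
    rw [abs_le]; constructor <;> linarith
  · simp only [yP] at h
    push_cast at h ⊢
    linear_combination h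

/-- The slots separate the roles of one pencil line. -/
theorem slotOf_inj (hp : GoodPrime p) (r r' : Role p)
    (hd : dirFrom ((0, nuP p) : Pt p) (rolePt (cP p) (yP p) r) =
      dirFrom (0, nuP p) (rolePt (cP p) (yP p) r'))
    (hsl : slotOf r = slotOf r') : r = r' := by
  rcases r with ⟨a, i⟩ | i <;> rcases r' with ⟨b, j⟩ | j
  · rw [rolePt_inl hp, rolePt_inl hp] at hd
    have hv := congrArg Fin.val hsl
    simp only [slotOf] at hv
    have hij : i = j := by
      apply Fin.ext
      split_ifs at hv <;> omega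
    subst hij
    set X := a + (hs i : ZMod p) with hX
    set Y := b + (hs i : ZMod p) with hY
    suffices h : X = Y by
      have : a = b := by rw [hX, hY] at h; exact add_right_cancel h
      rw [this]
    rcases dirFrom_eq_cases hd with ⟨h1, h2⟩ | ⟨h1, h2, h3⟩
    · simp only [qpt] at h1 h2
      rw [h1, h2]
    · simp only [qpt] at h1 h2 h3
      have hf : (X - Y) * (X * Y + ((hs i : ZMod p) ^ 2 + nuP p)) = 0 := by
        linear_combination h3
      rcases mul_eq_zero.1 hf with h | h
      · exact sub_eq_zero.1 h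
      · by_contra hne
        have hYX : -((hs i : ZMod p) ^ 2 + nuP p) / X = Y := by
          rw [div_eq_iff h1]; linear_combination -h
        have hXY : -((hs i : ZMod p) ^ 2 + nuP p) / Y = X := by
          rw [div_eq_iff h2]; linear_combination -h
        rw [hYX, hXY] at hv
        have hval : X.val ≠ Y.val := fun e => hne (ZMod.val_injective _ e)
        split_ifs at hv <;> omega
  · exfalso
    have hv := congrArg Fin.val hsl
    simp only [slotOf] at hv
    have := i.isLt
    split_ifs at hv <;> simp at hv <;> omega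
  · exfalso
    have hv := congrArg Fin.val hsl
    simp only [slotOf] at hv
    have := j.isLt
    split_ifs at hv <;> simp at hv <;> omega
  · have := eq_of_dir_eq hp (d := none) (A := rolePt (cP p) (yP p) (.inr i))
      (B := rolePt (cP p) (yP p) (.inr j)) (by simp [mline, mem_linePts_none, rolePt])
      (by simp [mline, mem_linePts_none, rolePt]) hd
    simp only [rolePt, Prod.mk.injEq, true_and] at this
    rw [yP_injective hp this]

/-- Good positions exist on every pencil line. -/
theorem exists_positions (hp : GoodPrime p) (hN : 2 * N + 12 ≤ p) (s : Option (ZMod p)) :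
    ∃ f : Fin N → Pt p, Function.Injective f ∧
      (∀ u, Inner (f u) ∧ f u ≠ (0, nuP p) ∧ (f u).1 ≠ cP p) ∧
      ∀ u, dirFrom (0, nuP p) (f u) = s := by
  set o : Pt p := (0, nuP p) with ho
  set l : PLine p := lineAt o s with hl
  have hol : o ∈ linePts l := by
    rcases s with _ | a
    · simp [hl, lineAt, mem_linePts_none]
    · simp [hl, lineAt, mem_linePts_some]
  have hinner : ¬ IsSquare (o.1 ^ 2 - o.2) := by
    simpa [ho] using neg_nu_not_square hp
  have hD : Interior.disc l ≠ 0 := fun h =>
    hinner (Interior.tangent_no_interior (by omega) h hol)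
  have hge := Interior.interior_line_ge (by omega) hD
  have hne : l ≠ (none, cP p) := by
    intro h
    rw [h, mem_linePts_none] at hol
    exact cP_ne hp hol.symm
  set T := (Interior.interiorPts l \ linePts ((none, cP p) : PLine p)).erase o with hT
  have hcard : N ≤ #T := by
    have h1 := card_sdiff_add_card_inter (Interior.interiorPts l)
      (linePts ((none, cP p) : PLine p))
    have h2 : #(Interior.interiorPts l ∩ linePts ((none, cP p) : PLine p)) ≤ 1 :=
      (card_le_card (inter_subset_inter_right (filter_subset _ _))).trans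
        (linePts_meet_le l (none, cP p) hne)
    have h3 := pred_card_le_card_erase (a := o)
      (s := Interior.interiorPts l \ linePts ((none, cP p) : PLine p))
    rw [← hT] at h3
    omega
  obtain ⟨g⟩ := Function.Embedding.nonempty_of_card_le (α := Fin N) (β := T) (by simpa using hcard)
  have hmem : ∀ u, (g u : Pt p) ∈ linePts l ∧ Inner (g u : Pt p) ∧ (g u : Pt p) ≠ o ∧
      (g u : Pt p).1 ≠ cP p := by
    intro u
    obtain ⟨h1, h2⟩ := mem_erase.1 (g u).2
    obtain ⟨h3, h4⟩ := mem_sdiff.1 h2
    obtain ⟨h5, h6⟩ := mem_filter.1 h3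
    exact ⟨h5, h6, h1, fun e => h4 (mem_linePts_none.2 e)⟩
  refine ⟨fun u => (g u : Pt p), Subtype.val_injective.comp g.injective,
    fun u => (hmem u).2, fun u => ?_⟩
  obtain ⟨h1, -, h2, -⟩ := hmem u
  rcases s with _ | a
  · simp only [hl, lineAt, mem_linePts_none, ho] at h1
    simp [dirFrom, ho, h1]
  · simp only [hl, lineAt, mem_linePts_some, ho] at h1
    have hx : (g u : Pt p).1 ≠ 0 := fun e => h2 (Prod.ext e (by rw [h1, e]; simp [ho]))
    simp only [dirFrom, ho, sub_zero, if_neg hx, Option.some.injEq]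
    rw [div_eq_iff hx, h1]
    ring

variable (P : Params p N)

theorem fRole_eq_inl {b : Option (ZMod p)} {i j : Fin 5} {a : ZMod p}
    (h : P.fRole b i = .inl (a, j)) : b = some a ∧ i = j := by
  rcases b with _ | b <;> simp_all [Params.fRole]

theorem pRole_eq_inl {b : Option (ZMod p)} {i j : Fin 5} {a : ZMod p}
    (h : P.pRole b i = .inl (a, j)) :
    i = j ∧ (b = some (a + shift p j) ∨ (b = none ∧ a = P.c - shift p j * 2⁻¹)) := by
  rcases b with _ | b <;> simp only [Params.pRole, Sum.inl.injEq, Prod.mk.injEq] at h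
  · obtain ⟨h1, rfl⟩ := h
    exact ⟨rfl, Or.inr ⟨rfl, h1.symm⟩⟩
  · obtain ⟨h1, rfl⟩ := h
    exact ⟨rfl, Or.inl (congrArg some (by rw [← h1]; ring))⟩

/-- The parameters use the numbers fixed in `Algebra`. -/
def Standard : Prop := P.nu = nuP p ∧ P.c = cP p ∧ P.y = yP p

variable {P} (hP : Standard P) (hp : GoodPrime p)
include hP hp

theorem rpt_inl_qpt (a : ZMod p) (i : Fin 5) :
    P.rpt (.inl (a, i)) = qpt (a + (hs i : ZMod p)) i := by
  rw [Params.rpt, hP.2.1, hP.2.2, rolePt_inl hp]

omit hp in
theorem rpt_inr (i : Fin 5) : P.rpt (.inr i) = (cP p, yP p i) := by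
  rw [Params.rpt, hP.2.1, hP.2.2, rolePt_inr]

omit hp in
theorem dir_eq (z : Pt p) : P.dir z = dirFrom (0, nuP p) z := by
  rw [Params.dir, Params.star, hP.1]

omit hP in
theorem half_shift (j : Fin 5) : shift p j * 2⁻¹ = (hs j : ZMod p) := by
  rw [shift_eq, mul_comm (2 : ZMod p), mul_assoc, mul_inv_cancel₀ (two_ne_zero' hp), mul_one]

theorem rpt_pRole_some (a : ZMod p) (j : Fin 5) :
    P.rpt (P.pRole (some a) j) = qpt (a - (hs j : ZMod p)) j := by
  simp only [Params.pRole, rpt_inl_qpt hP hp, shift_eq]
  congr 1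
  ring

theorem rpt_pRole_none (j : Fin 5) : P.rpt (P.pRole none j) = qpt (cP p) j := by
  simp only [Params.pRole, rpt_inl_qpt hP hp, half_shift hp, hP.2.1]
  congr 1
  ring

/-- What covers a role on a tangent. -/
theorem cov_inl {s : Option (ZMod p)} {a : ZMod p} {i : Fin 5} (h : P.Cov s (.inl (a, i))) :
    (∃ j, dirFrom (0, nuP p) (qpt (a - (hs j : ZMod p)) j) = s) ∨
    (∃ k, dirFrom (0, nuP p) (qpt (a + 2 * (hs i : ZMod p) + (hs k : ZMod p)) k) = s) ∨
    (a + (hs i : ZMod p) = cP p ∧ ∃ k, dirFrom (0, nuP p) (cP p, yP p k) = s) := by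
  obtain ⟨b, k, j, h | h⟩ := h
  · obtain ⟨h1, h2⟩ := h
    obtain ⟨rfl, -⟩ := fRole_eq_inl P h1.symm
    rw [dir_eq hP, rpt_pRole_some hP hp] at h2
    exact Or.inl ⟨j, h2⟩
  · obtain ⟨h1, h2⟩ := h
    obtain ⟨rfl, hb⟩ := pRole_eq_inl P h1.symm
    rw [dir_eq hP] at h2
    rcases hb with rfl | ⟨rfl, hb⟩
    · simp only [Params.fRole, rpt_inl_qpt hP hp, shift_eq] at h2
      exact Or.inr (Or.inl ⟨k, h2⟩)
    · simp only [Params.fRole, rpt_inr hP] at h2
      rw [half_shift hp, hP.2.1] at hb
      exact Or.inr (Or.inr ⟨by rw [hb]; ring, k, h2⟩)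

/-- What covers a role on the vertical line. -/
theorem cov_inr {s : Option (ZMod p)} {i : Fin 5} (h : P.Cov s (.inr i)) :
    ∃ j, dirFrom (0, nuP p) (qpt (cP p) j) = s := by
  obtain ⟨b, k, j, ⟨h1, h2⟩ | ⟨h1, -⟩⟩ := h
  · rcases b with _ | b
    · rw [dir_eq hP, rpt_pRole_none hP hp] at h2
      exact ⟨j, h2⟩
    · simp [Params.fRole] at h1
  · rcases b with _ | b <;> simp [Params.pRole] at h1

end Vale.Agent.P045.V4
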