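import Mathlib
import Vale.Agent.P045.V4.Params.Main

/-!
# P045: the residual conditions of host v4
-/

open Finset
open scoped Classical

namespace Vale.Agent.P045.V4

variable {p : ℕ} [Fact p.Prime] {N : ℕ} {P : Params p N}

theorem card_le_one_of_rel {α : Type*} [Fintype α] (S : α → Prop) [DecidablePred S]
    (h : ∀ x y, S x → S y → x = y) : #(univ.filter S) ≤ 1 :=
  card_le_one.2 fun x hx y hy => h x y (mem_filter.1 hx).2 (mem_filter.1 hy).2

theorem card_three_good (bad J0 J1 J2 : Fin 5 → Prop) [DecidablePred bad] [DecidablePred J0]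
    [DecidablePred J1] [DecidablePred J2] (hb : ∀ j, bad j → J0 j ∨ J1 j ∨ J2 j)
    (h0 : #(univ.filter J0) ≤ 1) (h1 : #(univ.filter J1) ≤ 1) (h2 : #(univ.filter J2) ≤ 1) :
    2 ≤ #(univ.filter fun j => ¬ bad j) := by
  have h := card_filter_add_card_filter_not (s := (univ : Finset (Fin 5))) bad
  rw [card_univ, Fintype.card_fin] at h
  have hle : #(univ.filter bad) ≤ #(univ.filter J0 ∪ univ.filter J1 ∪ univ.filter J2) :=
    card_le_card fun j hj => by
      simp only [mem_union, mem_filter, mem_univ, true_and] at hj ⊢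
      exact or_assoc.2 (hb j hj)
  have := (hle.trans (card_union_le _ _)).trans (Nat.add_le_add_right (card_union_le _ _) _)
  omega

theorem card_two_good (bad J0 J1 : Fin 5 → Prop) [DecidablePred bad] [DecidablePred J0]
    [DecidablePred J1] (hb : ∀ j, bad j → J0 j ∨ J1 j)
    (h0 : #(univ.filter J0) ≤ 1) (h1 : #(univ.filter J1) ≤ 1) :
    3 ≤ #(univ.filter fun j => ¬ bad j) := by
  have h := card_filter_add_card_filter_not (s := (univ : Finset (Fin 5))) bad
  rw [card_univ, Fintype.card_fin] at h
  have hle : #(univ.filter bad) ≤ #(univ.filter J0 ∪ univ.filter J1) :=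
    card_le_card fun j hj => by
      simp only [mem_union, mem_filter, mem_univ, true_and] at hj ⊢
      exact hb j hj
  have := hle.trans (card_union_le _ _)
  omega

/-- Two roles near the vertical line in one direction agree in abscissa and shift. -/
theorem vert_pair (hp : GoodPrime p) {z z' : ℤ} {k k' : Fin 5}
    (hz : |z - cInt| ≤ 512) (hz' : |z' - cInt| ≤ 512)
    (h : dirFrom (0, nuP p) (qpt (z : ZMod p) k) = dirFrom (0, nuP p) (qpt (z' : ZMod p) k')) :
    z = z' ∧ k = k' := by
  have hb := small_bound
  have h1 := hs_bounds k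
  have h2 := hs_bounds k'
  rw [abs_le] at hz hz'
  simp only [cInt] at hz hz'
  rcases dirFrom_eq_cases h with ⟨ha, -⟩ | ⟨-, -, h3⟩
  · exact absurd ha (cast_ne_zero_of_small hp (by omega) (by rw [abs_le]; constructor <;> linarith))
  · simp only [qpt, nuP] at h3
    set W : ℤ := z * z' * (z - z') - hs k ^ 2 * z' + hs k' ^ 2 * z + nuInt * (z - z') with hW
    have hzero : (W : ZMod p) = 0 := by
      rw [hW]
      push_cast
      linear_combination h3
    have hcub : |z * z' * (z - z')| ≤ 11000 * 11000 * 1024 := by
      rw [abs_mul, abs_mul]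
      gcongr <;> rw [abs_le] <;> omega
    have hlin : |hs k ^ 2 * z'| ≤ 65536 * 11000 ∧ |hs k' ^ 2 * z| ≤ 65536 * 11000 := by
      constructor <;> rw [abs_mul] <;> gcongr
      all_goals first
        | (rw [abs_le]; omega)
        | (rw [abs_of_nonneg (sq_nonneg _)]; nlinarith)
    obtain ⟨hc1, hc2⟩ := abs_le.1 hcub
    obtain ⟨hl1, hl2⟩ := abs_le.1 hlin.1
    obtain ⟨hl3, hl4⟩ := abs_le.1 hlin.2
    have hW0 : W = 0 := by
      by_contra hne
      refine cast_ne_zero_of_small hp hne ?_ hzero
      rw [hW, abs_le]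
      simp only [nuInt]
      constructor <;> nlinarith
    rcases lt_trichotomy z z' with hlt | rfl | hlt
    · exfalso
      simp only [hW, nuInt] at hW0
      nlinarith
    · refine ⟨rfl, hs_injective ?_⟩
      simp only [hW, sub_self, mul_zero, add_zero, zero_sub] at hW0
      have : z * (hs k' ^ 2 - hs k ^ 2) = 0 := by linear_combination hW0
      rcases mul_eq_zero.1 this with e | e
      · omega
      · nlinarith
    · exfalso
      simp only [hW, nuInt] at hW0
      nlinarith

/-- The candidate abscissas for a role on the vertical line. -/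
def vertX (j k : Fin 5) (b : Bool) : ℤ :=
  if b then cInt + (hs j + hs k) else cInt - (hs j + hs k)

theorem vertX_near (j k : Fin 5) (b : Bool) : |vertX j k b - cInt| ≤ 512 := by
  have := hs_bounds j; have := hs_bounds k
  rw [abs_le]
  cases b <;> simp [vertX] <;> omega

theorem vertX_inj {j j' k : Fin 5} {b b' : Bool} (h : vertX j k b = vertX j' k b') : j = j' := by
  have := hs_bounds j; have := hs_bounds j'; have := hs_bounds k
  refine hs_injective ?_
  cases b <;> cases b' <;> simp [vertX] at h <;> omega

variable (hP : Standard P) (hp : GoodPrime p)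
include hP hp

theorem class_free_aux (a : Option (ZMod p)) (i : Fin 5) :
    ¬ P.Cov (mdir a) (P.fRole a i) ∧ ¬ P.Cov (mdir a) (P.pRole a i) := by
  have hsb := small_bound
  have hcne := cP_ne hp
  have hi := hs_bounds i
  rcases a with _ | a
  · refine ⟨fun h => ?_, fun h => ?_⟩
    · obtain ⟨j, hj⟩ := cov_inr hP hp (i := i) h
      exact hcne (dirFrom_eq_none hj)
    · rcases cov_inl hP hp h with ⟨j, hj⟩ | ⟨k, hk⟩ | ⟨-, k, hk⟩
      · have hd := dirFrom_eq_none hj
        have := hs_bounds j
        refine cast_ne_zero_of_small hp (z := cInt - hs i - hs j) (by simp only [cInt]; omega)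
          (by simp only [cInt]; rw [abs_le]; constructor <;> linarith) ?_
        simp only [qpt, half_shift hp, hP.2.1, cP] at hd
        push_cast
        linear_combination hd
      · have hd := dirFrom_eq_none hk
        have := hs_bounds k
        refine cast_ne_zero_of_small hp (z := cInt + hs i + hs k) (by simp only [cInt]; omega)
          (by simp only [cInt]; rw [abs_le]; constructor <;> linarith) ?_
        simp only [qpt, half_shift hp, hP.2.1, cP] at hd
        push_cast
        linear_combination hd
      · exact hcne (dirFrom_eq_none hk)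
  · have hvert : ∀ (k : Fin 5) (e : ℤ), e = 1 ∨ e = -1 → a = cP p + e * (hs i : ZMod p) →
        dirFrom (0, nuP p) (cP p, yP p k) ≠ some (2 * a) := by
      intro k e he ha h
      obtain ⟨-, h2⟩ := dirFrom_eq_some h
      have := tInt_bounds k
      set z : ℤ := cInt ^ 2 + tInt k - nuInt - 2 * (cInt + e * hs i) * cInt with hz
      have hb1 : z < 0 ∧ -(10 : ℤ) ^ 39 ≤ z := by
        simp only [hz, cInt, nuInt]
        rcases he with rfl | rfl <;> constructor <;> linarith
      refine cast_ne_zero_of_small hp (z := z) (by omega)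
        (by rw [abs_le]; constructor <;> linarith [hb1.1, hb1.2]) ?_
      simp only [yP, nuP, cP, ha] at h2
      rw [hz]
      push_cast at h2 ⊢
      linear_combination h2
    refine ⟨fun h => ?_, fun h => ?_⟩
    · rcases cov_inl hP hp h with ⟨j, hj⟩ | ⟨k, hk⟩ | ⟨ha, k, hk⟩
      · exact class_tangent hp a j (-1) (by norm_num)
          (by simpa [sub_eq_add_neg, mdir] using hj)
      · refine class_two_step hp a (i, k) 1 (by norm_num) ?_
        simpa [off, mdir, add_assoc] using hk
      · exact hvert k (-1) (Or.inr rfl) (by rw [← ha]; push_cast; ring) hk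
    · rcases cov_inl hP hp h with ⟨j, hj⟩ | ⟨k, hk⟩ | ⟨ha, k, hk⟩
      · refine class_two_step hp a (i, j) (-1) (by norm_num) ?_
        simp only [shift_eq, mdir] at hj
        convert hj using 3
        simp [off]; ring
      · refine class_tangent hp a k 1 (by norm_num) ?_
        simp only [shift_eq, mdir] at hk
        convert hk using 3
        ring
      · refine hvert k 1 (Or.inl rfl) ?_ hk
        rw [shift_eq] at ha
        push_cast
        linear_combination ha

theorem fRole_on (a : Option (ZMod p)) (i : Fin 5) :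
    P.rpt (P.fRole a i) ∈ linePts (mline (cP p) a) := by
  rcases a with _ | a
  · simp [Params.fRole, rpt_inr hP, mline, mem_linePts_none]
  · simp only [Params.fRole, rpt_inl_qpt hP hp, mline, mem_linePts_some, qpt]
    ring

theorem pRole_on (a : Option (ZMod p)) (i : Fin 5) :
    P.rpt (P.pRole a i) ∈ linePts (mline (cP p) a) := by
  rcases a with _ | a
  · simp [rpt_pRole_none hP hp, mline, mem_linePts_none, qpt]
  · simp only [rpt_pRole_some hP hp, mline, mem_linePts_some, qpt]
    ring

omit hp in
theorem mem_mThrough {C : Pt p} {a : Option (ZMod p)} :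
    a ∈ P.mThrough C ↔ C ∈ linePts (mline (cP p) a) := by
  simp [Params.mThrough, hP.2.1]

omit hp in
theorem through_le_aux (C : Pt p) :
    #(P.mThrough C) ≤ 3 ∧ (C.1 ≠ cP p → #(P.mThrough C) ≤ 2) := by
  set R := (univ.filter fun x => (1 : ZMod p) * x ^ 2 + (-(2 * C.1)) * x + C.2 = 0).image some
    with hR
  have hRc : #R ≤ 2 := card_image_le.trans (Interior.card_roots_two (Or.inl one_ne_zero))
  have hsub : P.mThrough C ⊆ insert none R := by
    intro a ha
    rw [mem_mThrough hP] at ha
    rcases a with _ | a
    · exact mem_insert_self _ _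
    · refine mem_insert_of_mem (mem_image.2 ⟨a, mem_filter.2 ⟨mem_univ _, ?_⟩, rfl⟩)
      simp only [mline, mem_linePts_some] at ha
      rw [ha]; ring
  refine ⟨(card_le_card hsub).trans ((card_insert_le _ _).trans (by omega)), fun hc => ?_⟩
  refine (card_le_card fun a ha => ?_).trans hRc
  rcases mem_insert.1 (hsub ha) with rfl | h
  · rw [mem_mThrough hP] at ha
    exact absurd (by simpa [mline, mem_linePts_none] using ha) hc
  · exact h

theorem star_p_aux (C : Pt p) (a : Option (ZMod p)) (ha : a ∈ P.mThrough C)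
    (hf : ∀ i, P.rpt (P.fRole a i) ≠ C) :
    #(P.mThrough C) ≤
      #(univ.filter fun j => P.rpt (P.pRole a j) ≠ C ∧ ¬ P.Cov (P.dir C) (P.pRole a j)) := by
  obtain ⟨hmu3, hmu2⟩ := through_le_aux hP C
  rw [mem_mThrough hP] at ha
  have hrw : (univ.filter fun j => P.rpt (P.pRole a j) ≠ C ∧ ¬ P.Cov (P.dir C) (P.pRole a j)) =
      univ.filter fun j => ¬ (P.rpt (P.pRole a j) = C ∨ P.Cov (P.dir C) (P.pRole a j)) :=
    filter_congr fun j _ => by tauto
  rw [hrw, dir_eq hP]
  rcases a with _ | a
  · refine hmu3.trans (card_two_good _ (fun j => P.rpt (P.pRole none j) = C)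
      (fun j => ∃ k b, dirFrom (0, nuP p) (qpt (vertX j k b : ZMod p) k) = dirFrom (0, nuP p) C)
      ?_ ?_ ?_)
    · rintro j (h | h)
      · exact Or.inl h
      refine Or.inr ?_
      simp only [Params.pRole, half_shift hp, hP.2.1] at h
      rcases cov_inl hP hp h with ⟨k, hk⟩ | ⟨k, hk⟩ | ⟨-, k, hk⟩
      · refine ⟨k, false, ?_⟩
        rw [← hk]; congr 2; simp [vertX, cP]; ring
      · refine ⟨k, true, ?_⟩
        rw [← hk]; congr 2; simp [vertX, cP]; ring
      · exfalso
        refine hf k (eq_of_dir_eq hp (fRole_on hP hp none k) ha ?_)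
        rw [← hk]; simp [Params.fRole, rpt_inr hP]
    · refine card_le_one_of_rel _ fun x y hx hy => ?_
      have h := hx.trans hy.symm
      simp only [rpt_pRole_none hP hp, qpt, Prod.mk.injEq, true_and] at h
      exact hs_sq_inj hp (by linear_combination -h)
    · refine card_le_one_of_rel _ ?_
      rintro x y ⟨k, b, hx⟩ ⟨k', b', hy⟩
      obtain ⟨he, rfl⟩ := vert_pair hp (vertX_near x k b) (vertX_near y k' b') (hx.trans hy.symm)
      exact vertX_inj he
  · set J0 := fun j => P.rpt (P.pRole (some a) j) = C with hJ0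
    set J1 := fun j => ∃ k : Fin 5,
      dirFrom (0, nuP p) (qpt (a + -1 * (off (j, k) : ZMod p)) k) = dirFrom (0, nuP p) C with hJ1
    set J2 := fun j => a - (hs j : ZMod p) = cP p with hJ2
    have hb : ∀ j, P.rpt (P.pRole (some a) j) = C ∨
        P.Cov (dirFrom (0, nuP p) C) (P.pRole (some a) j) → J0 j ∨ J1 j ∨ J2 j := by
      rintro j (h | h)
      · exact Or.inl h
      simp only [Params.pRole] at h
      rcases cov_inl hP hp h with ⟨k, hk⟩ | ⟨k, hk⟩ | ⟨hk, -⟩
      · refine Or.inr (Or.inl ⟨k, ?_⟩)
        rw [← hk]; congr 2; simp [off, shift_eq]; ring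
      · exfalso
        refine hf k (eq_of_dir_eq hp (fRole_on hP hp (some a) k) ha ?_)
        rw [← hk]
        simp only [Params.fRole, rpt_inl_qpt hP hp]
        congr 2; simp [shift_eq]
      · refine Or.inr (Or.inr ?_)
        rw [shift_eq] at hk
        simp only [hJ2]; linear_combination hk
    have h0 : #(univ.filter J0) ≤ 1 := card_le_one_of_rel _ fun x y hx hy => by
      have h := hx.trans hy.symm
      simp only [rpt_pRole_some hP hp, qpt, Prod.mk.injEq] at h
      exact hs_cast_inj hp (sub_right_injective h.1)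
    have h1 : #(univ.filter J1) ≤ 1 := by
      refine card_le_one_of_rel _ ?_
      rintro x y ⟨k, hx⟩ ⟨k', hy⟩
      exact congrArg Prod.fst (pair_dir hp a (x, k) (y, k') (-1) (by norm_num) (hx.trans hy.symm))
    by_cases hc : C.1 = cP p
    · refine hmu3.trans (card_two_good _ J0 J1 (fun j hj => ?_) h0 h1)
      rcases hb j hj with h | h | h
      · exact Or.inl h
      · exact Or.inr h
      · refine Or.inl ?_
        have hon := pRole_on hP hp (some a) j
        have hx : (P.rpt (P.pRole (some a) j)).1 = C.1 := by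
          rw [rpt_pRole_some hP hp, hc]; exact h
        simp only [mline, mem_linePts_some] at hon ha
        exact Prod.ext hx (by rw [hon, ha, hx])
    · exact (hmu2 hc).trans (card_three_good _ J0 J1 J2 hb h0 h1
        (card_le_one_of_rel _ fun x y hx hy =>
          hs_cast_inj hp (sub_right_injective (hx.trans hy.symm))))

theorem star_f_aux (C : Pt p) (a : Option (ZMod p)) (i : Fin 5)
    (hC : P.rpt (P.fRole a i) = C) :
    ∃ i', P.rpt (P.fRole a i') ≠ C ∧ ¬ P.Cov (P.dir C) (P.fRole a i') := by
  subst hC
  rw [dir_eq hP]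
  rcases a with _ | a
  · obtain ⟨i', hi'⟩ : ∃ i' : Fin 5, i' ≠ i := exists_ne i
    refine ⟨i', fun h => hi' ?_, fun h => ?_⟩
    · simp only [Params.fRole, rpt_inr hP, Prod.mk.injEq, true_and] at h
      exact yP_injective hp h
    · obtain ⟨j, hj⟩ := cov_inr hP hp (i := i') h
      have := eq_of_dir_eq hp (d := none) (A := qpt (cP p) j) (B := P.rpt (P.fRole none i))
        (by simp [qpt, mline, mem_linePts_none]) (fRole_on hP hp none i) hj
      rw [Params.fRole, rpt_inr hP] at this
      exact qpt_ne_yP hp _ _ _ this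
  · set C := P.rpt (P.fRole (some a) i) with hC
    have hgood := card_three_good
      (fun i' => P.rpt (P.fRole (some a) i') = C ∨
        P.Cov (dirFrom (0, nuP p) C) (P.fRole (some a) i'))
      (fun i' => i' = i)
      (fun i' => ∃ k : Fin 5,
        dirFrom (0, nuP p) (qpt (a + 1 * (off (i', k) : ZMod p)) k) = dirFrom (0, nuP p) C)
      (fun i' => a + (hs i' : ZMod p) = cP p) ?_
      (card_le_one_of_rel _ fun x y hx hy => hx.trans hy.symm) ?_
      (card_le_one_of_rel _ fun x y hx hy =>
        hs_cast_inj hp (add_left_cancel (hx.trans hy.symm)))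
    · obtain ⟨i', hi'⟩ := card_pos.1 (lt_of_lt_of_le Nat.zero_lt_two hgood)
      simp only [mem_filter, mem_univ, true_and, not_or] at hi'
      exact ⟨i', hi'.1, hi'.2⟩
    · rintro i' (h | h)
      · refine Or.inl ?_
        simp only [hC, Params.fRole, rpt_inl_qpt hP hp, qpt, Prod.mk.injEq] at h
        exact hs_cast_inj hp (add_left_cancel h.1)
      simp only [Params.fRole] at h
      rcases cov_inl hP hp h with ⟨j, hj⟩ | ⟨k, hk⟩ | ⟨hk, -⟩
      · exfalso
        have := eq_of_dir_eq hp (d := some a) (A := qpt (a - (hs j : ZMod p)) j)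
          (by rw [← rpt_pRole_some hP hp]; exact pRole_on hP hp (some a) j)
          (fRole_on hP hp (some a) i) hj
        simp only [Params.fRole, rpt_inl_qpt hP hp, qpt, Prod.mk.injEq] at this
        exact hs_ne_zero hp i j (by linear_combination -this.1)
      · refine Or.inr (Or.inl ⟨k, ?_⟩)
        rw [← hk]; congr 2; simp [off]; ring
      · exact Or.inr (Or.inr hk)
    · refine card_le_one_of_rel _ ?_
      rintro x y ⟨k, hx⟩ ⟨k', hy⟩
      exact congrArg Prod.fst (pair_dir hp a (x, k) (y, k') 1 (by norm_num) (hx.trans hy.symm))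

theorem star_f_one_aux (C : Pt p) (a b : Option (ZMod p)) (i j : Fin 5)
    (h1 : P.rpt (P.fRole a i) = C) (h2 : P.rpt (P.fRole b j) = C) : a = b := by
  have h := h1.trans h2.symm
  rcases a with _ | a <;> rcases b with _ | b
  · rfl
  · simp only [Params.fRole, rpt_inr hP, rpt_inl_qpt hP hp] at h
    exact absurd h.symm (qpt_ne_yP hp _ _ _)
  · simp only [Params.fRole, rpt_inr hP, rpt_inl_qpt hP hp] at h
    exact absurd h (qpt_ne_yP hp _ _ _)
  · simp only [Params.fRole, rpt_inl_qpt hP hp, qpt, Prod.mk.injEq] at h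
    obtain ⟨hX, hY⟩ := h
    have : i = j := hs_sq_inj hp (by rw [hX] at hY; linear_combination -hY)
    subst this
    exact congrArg some (add_right_cancel hX)

theorem residual_aux : P.Residual where
  class_free a i := class_free_aux hP hp a i
  through_le C := (through_le_aux hP C).1
  star_p C a _ ha hf := star_p_aux hP hp C a ha hf
  star_f C a i hC := star_f_aux hP hp C a i hC
  star_f_one C a b i j h1 h2 := star_f_one_aux hP hp C a b i j h1 h2

end Vale.Agent.P045.V4
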