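import Mathlib
import Vale.Agent.P045.V4.Params.Residual

/-!
# P045: the parameter statement of host v4
-/

open Finset
open scoped Classical

namespace Vale.Agent.P045.V4

/-- The tangents whose shifts lead from one to the other. -/
def shiftRel (p : ℕ) (a b : ZMod p) : Prop :=
  ∃ i : Fin 5, b = a + shift p i ∨ a = b + shift p i

theorem exists_chi {p : ℕ} [Fact p.Prime] (hp : GoodPrime p) :
    ∃ chi : Option (ZMod p) → Fin 12, (∀ a, chi (some a) ≠ chi none) ∧
      ∀ a i, chi (some a) ≠ chi (some (a + shift p i)) := by
  have hne : ∀ i : Fin 5, shift p i ≠ 0 := by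
    intro i h
    rw [shift_eq, mul_eq_zero] at h
    rcases h with h | h
    · exact two_ne_zero' hp h
    · exact hs_ne_zero hp i i (by rw [h, add_zero])
  have hirr : ∀ a : ZMod p, ¬ shiftRel p a a := by
    rintro a ⟨i, h | h⟩ <;> exact hne i (by simpa using h.symm)
  have hdeg : ∀ a : ZMod p, #(univ.filter (shiftRel p a)) ≤ 10 := by
    intro a
    refine (card_le_card (t := (univ.image fun i => a + shift p i) ∪
      univ.image fun i => a - shift p i) ?_).trans ((card_union_le _ _).trans
      ((Nat.add_le_add card_image_le card_image_le).trans (by simp)))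
    intro b hb
    obtain ⟨i, rfl | h⟩ := (mem_filter.1 hb).2
    · exact mem_union_left _ (mem_image_of_mem _ (mem_univ i))
    · exact mem_union_right _ (mem_image.2 ⟨i, mem_univ _, by rw [h]; ring⟩)
  obtain ⟨f, hf⟩ := exists_colouring (shiftRel p) 10
    (fun x y ⟨i, h⟩ => ⟨i, h.symm⟩) hirr hdeg
  refine ⟨fun a => a.elim (Fin.last 11) fun x => (f x).castSucc, fun a => ?_, fun a i => ?_⟩
  · exact (Fin.castSucc_lt_last _).ne
  · simpa using hf a (a + shift p i) ⟨i, Or.inl rfl⟩

/-- Parameters exist for arbitrarily large primes. -/
theorem param_stmt : ParamStmt := by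
  intro N B
  obtain ⟨p, hpM, hpB, -, hpr, hneg⟩ := exists_neg_prime negBound (B + 2 * N + 12)
  have : Fact p.Prime := ⟨hpr⟩
  have hp : GoodPrime p := ⟨hpB, hneg⟩
  obtain ⟨chi, hchi0, hchi⟩ := exists_chi hp
  choose pos hpos using exists_positions (N := N) hp (by omega)
  have hshift : Function.Injective (shift p) := fun i j h => by
    rw [shift_eq, shift_eq] at h
    exact hs_cast_inj hp (mul_left_cancel₀ (two_ne_zero' hp) h)
  let P : Params p N :=
    { nu := nuP p
      c := cP p
      y := yP p
      chi := chi
      slot := slotOf
      pos := pos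
      two_ne := two_ne_zero' hp
      shift_inj := hshift
      shift_add := fun i j h => by
        rw [shift_eq, shift_eq, ← mul_add, mul_eq_zero] at h
        rcases h with h | h
        · exact two_ne_zero' hp h
        · exact hs_ne_zero hp i j h
      star_inner := by simpa [Inner] using neg_nu_not_square hp
      c_ne := cP_ne hp
      y_inner := fun i => by
        have := not_square_of_small hp (z := -tInt i)
          (by have := tInt_bounds i; omega)
          (by have := tInt_bounds i; simp only [negBound]; push_cast; linarith)
        have e : cP p ^ 2 - yP p i = ((-tInt i : ℤ) : ZMod p) := by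
          simp only [cP, yP]; push_cast; ring
        simpa [Inner, e] using this
      y_inj := yP_injective hp
      chi_none := hchi0
      chi_shift := hchi
      slot_inj := slotOf_inj hp
      pos_inj := fun s => (hpos s).1
      pos_inner := fun s u => (hpos s).2.1 u
      pos_dir := fun s u => (hpos s).2.2 u }
  exact ⟨p, this, by omega, P, residual_aux (P := P) ⟨rfl, rfl, rfl⟩ hp⟩

end Vale.Agent.P045.V4
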